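import Crest.Agent.R214.Cert.C01
import Crest.Agent.R214.Cert.C02
import Crest.Agent.R214.Cert.C03
import Crest.Agent.R214.Cert.C04
import Crest.Agent.R214.Cert.C05
import Crest.Agent.R214.Cert.C06
import Crest.Agent.R214.Cert.C07
import Crest.Agent.R214.Cert.C08
import Crest.Agent.R214.Cert.C09
import Crest.Agent.R214.Cert.C10
import Crest.Agent.R214.Cert.C11
import Crest.Agent.R214.Cert.C12
import Crest.Agent.R214.Cert.C13
import Crest.Agent.R214.Cert.C14
import Crest.Agent.R214.Cert.C15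
import Crest.Agent.R214.Cert.C16
import Crest.Agent.R214.Cert.C17
import Crest.Agent.R214.Cert.C18
import Crest.Agent.R214.Cert.C19
import Crest.Agent.R214.Cert.C20
import Crest.Agent.R214.Cert.C21
import Crest.Agent.R214.Cert.C22
import Crest.Agent.R214.Cert.C23
import Crest.Agent.R214.Cert.C24
import Crest.Agent.R214.Cert.C25
import Crest.Agent.R214.Cert.C26
import Crest.Agent.R214.Cert.C27
import Crest.Agent.R214.Cert.C28
import Crest.Agent.R214.Cert.C29
import Crest.Agent.R214.Cert.C30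
import Crest.Agent.R214.Cert.C31
import Crest.Agent.R214.Cert.C32
import Crest.Agent.R214.Cert.C35
import Crest.Agent.R214.Cert.C36

/-! Row 214: the three root boxes are certified (generated). -/

set_option autoImplicit false
set_option maxRecDepth 100000

namespace Crest.Agent.R214

theorem ok_a : Ok 0 (root 1 0 (9 / 32)) :=
  (Ok.split 1 524288 (Ok.split 1 262144 ca1 (Ok.split 0 147456 (Ok.split 0 32768 (Ok.split 1 393216 ca2 (Ok.split 1 458752 ca3 ca4)) ca5) ca6)) (Ok.split 1 786432 (Ok.split 0 147456 (Ok.split 0 32768 (Ok.split 1 655360 (Ok.split 1 589824 (Ok.split 0 8192 (Ok.split 1 557056 ca7 ca8) ca9) (Ok.split 0 8192 (Ok.split 1 622592 (Ok.split 0 2048 (Ok.split 3 311296 ca10 (Ok.split 3 466944 ca11 ca12)) ca13) (Ok.split 0 2048 (Ok.split 3 327680 ca14 (Ok.split 3 491520 ca15 (Ok.split 6 147456 ca16 (Ok.split 1 638976 ca17 ca18)))) ca19)) ca20)) (Ok.split 1 720896 (Ok.split 0 8192 (Ok.split 0 2048 (Ok.split 1 688128 (Ok.split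 3 344064 ca21 (Ok.split 6 147456 ca22 (Ok.split 3 516096 ca23 (Ok.split 6 221184 ca24 (Ok.split 1 671744 ca25 ca26))))) ca27) ca28) ca29) ca30)) ca31) ca32) ca33))

theorem ok_b : Ok 0 (root 1 (9 / 32) (1 / 2)) :=
  (Ok.split 1 671744 (Ok.split 0 262144 (Ok.split 1 483328 (Ok.split 0 131072 (Ok.split 1 389120 cb1 (Ok.split 0 32768 cb2 cb3)) (Ok.split 1 389120 cb4 (Ok.split 0 196608 (Ok.split 1 436224 (Ok.split 1 412672 cb5 cb6) (Ok.split 3 307200 cb7 (Ok.split 6 389120 (Ok.split 0 163840 (Ok.split 3 395264 cb8 (Ok.split 1 459776 cb9 (Ok.split 5 524288 (Ok.split 5 262144 cb10 (Ok.split 1 471552 cb11 (Ok.split 0 147456 cb12 cb13))) cb14))) (Ok.split 1 459776 (Ok.split 3 383488 cb15 (Ok.split 5 524288 (Ok.split 5 262144 cb16 (Ok.split 4 524288 (Ok.split 4 262144 cb17 (Ok.split 4 393216 cb18 cb19)) cb20)) cb21)) (Ok.split 3 395264 cb22 (Ok.split 0 180224 (Ok.split 5 524288 (Ok.split 5 262144 cb23 (Ok.split 4 524288 (Ok.split 4 262144 cb24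 (Ok.split 4 393216 cb25 (Ok.split 1 471552 cb26 cb27))) cb28)) cb29) (Ok.split 5 524288 (Ok.split 5 262144 cb30 (Ok.split 4 524288 (Ok.split 4 262144 cb31 (Ok.split 4 393216 cb32 (Ok.split 4 458752 cb33 (Ok.split 1 471552 cb34 cb35)))) (Ok.split 4 786432 (Ok.split 4 655360 (Ok.split 1 471552 cb36 cb37) cb38) cb39))) cb40))))) cb41))) (Ok.split 1 436224 (Ok.split 3 316416 cb42 (Ok.split 0 229376 (Ok.split 6 365568 (Ok.split 1 412672 cb43 cb44) cb45) (Ok.split 1 412672 cb46 cb47))) (Ok.split 3 339968 cb48 (Ok.split 0 229376 (Ok.split 6 389120 (Ok.split 1 459776 (Ok.split 0 212992 (Ok.split 5 524288 (Ok.split 5 262144 cb49 (Ok.split 4 524288 (Ok.split 4 262144 cb50 (Ok.split 4 393216 cb51 cb52)) cb53)) cb54) (Ok.split 5 524288 (Ok.split 5 262144 cb55 (Ok.split 4 524288 cb56 cb57)) cb58)) (Ok.split 0 212992 (Ok.split 3 411648 cb59 (Ok.split 5 524288 (Ok.split 5 262144 cb60 (Ok.split 4 524288 (Ok.split 4 262144 cb61 (Ok.split 4 393216 cb62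 (Ok.split 4 458752 cb63 (Ok.split 1 471552 cb64 cb65)))) (Ok.split 4 786432 (Ok.split 4 655360 (Ok.split 1 471552 cb66 cb67) cb68) cb69))) cb70)) (Ok.split 5 524288 (Ok.split 5 262144 cb71 (Ok.split 3 411648 cb72 (Ok.split 4 524288 (Ok.split 4 262144 cb73 (Ok.split 4 393216 cb74 (Ok.split 4 458752 cb75 (Ok.split 1 471552 cb76 cb77)))) cb78))) cb79))) cb80) (Ok.split 6 389120 (Ok.split 1 459776 (Ok.split 0 245760 (Ok.split 4 524288 cb81 cb82) cb83) (Ok.split 0 245760 (Ok.split 4 524288 cb84 cb85) cb86)) cb87))))))) (Ok.split 0 131072 (Ok.split 0 32768 (Ok.split 1 577536 cb88 (Ok.split 0 8192 (Ok.split 1 624640 (Ok.split 0 2048 (Ok.split 1 601088 cb89 cb90) cb91) (Ok.split 3 335872 cb92 (Ok.split 6 409600 (Ok.split 0 2048 (Ok.split 1 648192 (Ok.split 3 492032 cb93 (Ok.split 6 352256 (Ok.split 0 512 (Ok.split 3 570112 cb94 cb95) cb96) cb97)) (Ok.split 3 503808 cb98 (Ok.split 6 352256 (Ok.split 5 524288 cb99 cb100) cb101))) cb102) cb103)))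 cb104)) (Ok.split 1 577536 (Ok.split 0 81920 cb105 (Ok.split 1 530432 (Ok.split 3 306176 cb106 (Ok.split 6 409600 (Ok.split 3 418304 cb107 (Ok.split 1 506880 cb108 (Ok.split 0 106496 cb109 (Ok.split 6 352256 (Ok.split 5 524288 (Ok.split 5 262144 cb110 (Ok.split 5 393216 cb111 cb112)) cb113) cb114)))) cb115)) (Ok.split 3 329728 cb116 (Ok.split 6 409600 (Ok.split 3 453632 cb117 (Ok.split 0 106496 (Ok.split 1 553984 cb118 cb119) (Ok.split 1 553984 (Ok.split 6 352256 (Ok.split 5 524288 (Ok.split 5 262144 cb120 (Ok.split 5 393216 cb121 cb122)) cb123) cb124) (Ok.split 6 352256 (Ok.split 0 118784 cb125 cb126) cb127)))) cb128)))) (Ok.split 0 81920 cb129 (Ok.split 1 624640 (Ok.split 0 106496 cb130 (Ok.split 3 365568 cb131 (Ok.split 6 409600 (Ok.split 3 495104 cb132 (Ok.split 1 601088 cb133 cb134)) cb135))) cb136)))) (Ok.split 0 196608 (Ok.split 1 577536 (Ok.split 3 354304 cb137 (Ok.split 6 409600 (Ok.split 1 530432 (Ok.split 0 163840 (Ok.split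 1 506880 (Ok.split 6 352256 (Ok.split 3 430592 cb138 (Ok.split 0 147456 (Ok.split 5 524288 (Ok.split 5 262144 cb139 (Ok.split 5 393216 cb140 cb141)) cb142) (Ok.split 5 524288 (Ok.split 5 262144 cb143 (Ok.split 5 393216 (Ok.split 4 524288 cb144 cb145) (Ok.split 1 495104 cb146 cb147))) cb148))) cb149) (Ok.split 3 442368 cb150 (Ok.split 6 352256 (Ok.split 0 147456 (Ok.split 5 524288 (Ok.split 5 262144 cb151 (Ok.split 5 393216 (Ok.split 1 518656 cb152 cb153) (Ok.split 1 518656 cb154 cb155))) cb156) (Ok.split 5 524288 (Ok.split 5 262144 cb157 (Ok.split 5 393216 (Ok.split 1 518656 (Ok.split 5 327680 cb158 (Ok.split 4 524288 cb159 cb160)) (Ok.split 4 524288 cb161 cb162)) (Ok.split 1 518656 (Ok.split 4 524288 cb163 cb164) (Ok.split 4 524288 cb165 cb166)))) cb167)) cb168))) (Ok.split 1 506880 (Ok.split 3 430592 cb169 (Ok.split 0 180224 (Ok.split 6 352256 (Ok.split 5 524288 (Ok.split 5 262144 cb170 (Ok.split 5 393216 (Ok.split 4 524288 (Ok.split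 4 262144 cb171 (Ok.split 4 393216 cb172 (Ok.split 4 458752 cb173 (Ok.split 5 327680 cb174 (Ok.split 1 495104 cb175 cb176))))) (Ok.split 4 786432 (Ok.split 4 655360 (Ok.split 1 495104 cb177 cb178) cb179) cb180)) (Ok.split 4 524288 (Ok.split 4 262144 cb181 (Ok.split 4 393216 cb182 cb183)) cb184))) cb185) cb186) (Ok.split 6 352256 (Ok.split 5 524288 (Ok.split 5 262144 cb187 (Ok.split 4 524288 (Ok.split 4 262144 cb188 (Ok.split 4 393216 cb189 (Ok.split 4 458752 cb190 (Ok.split 5 393216 (Ok.split 1 495104 cb191 cb192) cb193)))) (Ok.split 4 786432 (Ok.split 4 655360 (Ok.split 1 495104 cb194 cb195) cb196) cb197))) cb198) cb199))) (Ok.split 0 180224 (Ok.split 3 442368 cb200 (Ok.split 6 352256 (Ok.split 5 524288 (Ok.split 5 262144 cb201 (Ok.split 5 393216 (Ok.split 4 524288 (Ok.split 4 262144 cb202 (Ok.split 4 393216 cb203 (Ok.split 1 518656 cb204 cb205))) (Ok.split 4 786432 (Ok.split 4 655360 (Ok.split 1 518656 cb206 cb207) cb208) cb209)) (Ok.split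 4 524288 (Ok.split 4 262144 cb210 (Ok.split 4 393216 cb211 (Ok.split 1 518656 cb212 cb213))) (Ok.split 4 786432 (Ok.split 4 655360 cb214 cb215) cb216)))) cb217) cb218)) (Ok.split 3 442368 cb219 (Ok.split 6 352256 (Ok.split 5 524288 (Ok.split 5 262144 cb220 (Ok.split 4 524288 (Ok.split 4 262144 cb221 (Ok.split 4 393216 cb222 (Ok.split 5 393216 (Ok.split 4 458752 cb223 (Ok.split 1 518656 cb224 cb225)) (Ok.split 1 518656 cb226 cb227)))) (Ok.split 4 786432 (Ok.split 4 655360 (Ok.split 1 518656 (Ok.split 4 589824 cb228 cb229) cb230) cb231) cb232))) cb233) cb234))))) (Ok.split 0 163840 (Ok.split 1 553984 (Ok.split 3 454144 cb235 (Ok.split 0 147456 (Ok.split 6 352256 (Ok.split 5 524288 (Ok.split 5 262144 cb236 (Ok.split 5 393216 cb237 (Ok.split 1 542208 cb238 cb239))) cb240) cb241) (Ok.split 6 352256 (Ok.split 5 524288 (Ok.split 5 262144 cb242 (Ok.split 5 393216 (Ok.split 4 524288 (Ok.split 4 262144 cb243 (Ok.split 4 393216 cb244 cb245)) cb246)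 (Ok.split 1 542208 (Ok.split 4 524288 cb247 cb248) (Ok.split 4 524288 cb249 cb250)))) cb251) cb252))) (Ok.split 0 147456 (Ok.split 3 465920 cb253 (Ok.split 6 352256 (Ok.split 5 524288 (Ok.split 5 262144 cb254 (Ok.split 5 393216 cb255 (Ok.split 1 565760 cb256 cb257))) cb258) cb259)) (Ok.split 3 465920 cb260 (Ok.split 6 352256 (Ok.split 5 524288 (Ok.split 5 262144 cb261 (Ok.split 5 393216 cb262 (Ok.split 6 323584 cb263 (Ok.split 1 565760 cb264 cb265)))) cb266) cb267)))) (Ok.split 0 180224 (Ok.split 3 465920 cb268 (Ok.split 1 553984 (Ok.split 6 352256 (Ok.split 5 524288 (Ok.split 5 262144 cb269 (Ok.split 5 393216 (Ok.split 4 524288 (Ok.split 4 262144 cb270 (Ok.split 4 393216 cb271 cb272)) cb273) (Ok.split 1 542208 (Ok.split 4 524288 cb274 cb275) cb276))) cb277) cb278) (Ok.split 6 352256 (Ok.split 6 323584 cb279 (Ok.split 5 524288 (Ok.split 5 262144 cb280 (Ok.split 5 393216 cb281 cb282)) cb283)) cb284))) (Ok.split 1 553984 (Ok.split 6 352256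 (Ok.split 3 454144 cb285 (Ok.split 5 524288 (Ok.split 5 262144 cb286 (Ok.split 5 393216 (Ok.split 6 323584 cb287 (Ok.split 4 524288 cb288 cb289)) (Ok.split 6 323584 cb290 (Ok.split 4 524288 cb291 cb292)))) cb293)) cb294) (Ok.split 6 352256 (Ok.split 6 323584 cb295 (Ok.split 3 465920 cb296 (Ok.split 4 524288 cb297 cb298))) cb299))))) cb300)) (Ok.split 0 163840 (Ok.split 1 624640 (Ok.split 3 377856 cb301 (Ok.split 6 409600 (Ok.split 0 147456 cb302 cb303) cb304)) cb305) (Ok.split 1 624640 (Ok.split 3 394240 cb306 cb307) cb308))) (Ok.split 1 577536 (Ok.split 0 229376 (Ok.split 3 387072 cb309 (Ok.split 6 409600 (Ok.split 1 530432 (Ok.split 0 212992 (Ok.split 1 506880 (Ok.split 6 352256 (Ok.split 5 524288 (Ok.split 5 262144 cb310 (Ok.split 4 524288 (Ok.split 4 262144 cb311 (Ok.split 4 393216 cb312 (Ok.split 4 458752 cb313 (Ok.split 1 495104 (Ok.split 5 393216 cb314 cb315) (Ok.split 5 393216 cb316 cb317))))) (Ok.split 4 786432 (Ok.split 4 655360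 (Ok.split 1 495104 cb318 cb319) cb320) cb321))) cb322) cb323) (Ok.split 6 352256 (Ok.split 5 524288 (Ok.split 5 262144 cb324 (Ok.split 4 524288 (Ok.split 4 262144 cb325 (Ok.split 4 393216 cb326 (Ok.split 4 458752 cb327 (Ok.split 6 323584 cb328 (Ok.split 5 393216 cb329 cb330))))) (Ok.split 4 786432 (Ok.split 4 655360 (Ok.split 6 323584 cb331 (Ok.split 1 518656 cb332 cb333)) cb334) cb335))) cb336) cb337)) (Ok.split 1 506880 (Ok.split 6 352256 (Ok.split 5 524288 (Ok.split 5 262144 cb338 (Ok.split 4 524288 (Ok.split 4 262144 cb339 (Ok.split 4 393216 cb340 (Ok.split 4 458752 cb341 (Ok.split 6 323584 cb342 (Ok.split 4 491520 cb343 cb344))))) (Ok.split 4 786432 (Ok.split 4 655360 (Ok.split 6 323584 cb345 (Ok.split 1 495104 cb346 cb347)) cb348) cb349))) cb350) cb351) (Ok.split 4 524288 cb352 cb353))) (Ok.split 0 212992 (Ok.split 1 553984 (Ok.split 6 352256 (Ok.split 4 524288 (Ok.split 4 262144 cb354 (Ok.split 4 393216 cb355 cb356)) cb357) cb358)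 cb359) (Ok.split 1 553984 (Ok.split 4 524288 cb360 cb361) cb362))) cb363)) (Ok.split 1 530432 (Ok.split 3 379904 cb364 (Ok.split 6 409600 (Ok.split 0 245760 (Ok.split 1 506880 (Ok.split 4 524288 cb365 cb366) cb367) cb368) cb369)) cb370)) cb371)))) (Ok.split 0 393216 (Ok.split 1 483328 (Ok.split 0 327680 (Ok.split 1 389120 cb372 (Ok.split 0 294912 (Ok.split 1 436224 cb373 cb374) cb375)) cb376) cb377) cb378)) (Ok.split 0 262144 (Ok.split 1 860160 (Ok.split 0 131072 (Ok.split 0 32768 (Ok.split 1 765952 (Ok.split 0 8192 (Ok.split 1 718848 (Ok.split 6 409600 (Ok.split 0 2048 (Ok.split 3 359424 cb379 (Ok.split 1 695296 (Ok.split 6 352256 (Ok.split 3 527360 cb380 (Ok.split 0 512 (Ok.split 5 524288 (Ok.split 5 262144 cb381 (Ok.split 1 683520 cb382 cb383)) (Ok.split 5 786432 (Ok.split 3 611328 cb384 (Ok.split 1 683520 cb385 cb386)) cb387)) cb388)) cb389) (Ok.split 6 352256 (Ok.split 0 512 (Ok.split 3 539136 cb390 (Ok.split 1 707072 (Ok.split 5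 524288 cb391 (Ok.split 5 786432 (Ok.split 5 655360 (Ok.split 3 623104 cb392 cb393) cb394) cb395)) (Ok.split 5 524288 cb396 (Ok.split 5 786432 (Ok.split 5 655360 (Ok.split 5 589824 (Ok.split 5 557056 cb397 cb398) cb399) cb400) cb401)))) cb402) cb403))) cb404) cb405) (Ok.split 6 409600 (Ok.split 0 2048 (Ok.split 1 742400 (Ok.split 3 371200 cb406 (Ok.split 6 352256 (Ok.split 0 512 (Ok.split 1 730624 (Ok.split 3 550912 cb407 (Ok.split 5 524288 cb408 (Ok.split 5 786432 (Ok.split 5 655360 cb409 cb410) cb411))) (Ok.split 5 524288 cb412 (Ok.split 5 786432 cb413 cb414))) cb415) cb416)) (Ok.split 6 352256 (Ok.split 3 382976 cb417 (Ok.split 0 512 (Ok.split 1 754176 (Ok.split 5 524288 (Ok.split 5 262144 cb418 cb419) cb420) (Ok.split 5 524288 (Ok.split 5 262144 cb421 (Ok.split 0 128 cb422 cb423)) (Ok.split 5 786432 cb424 cb425))) cb426)) cb427)) cb428) cb429)) cb430) (Ok.split 0 8192 (Ok.split 1 813056 (Ok.split 0 2048 (Ok.split 1 789504 (Ok.split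 6 409600 (Ok.split 6 352256 (Ok.split 0 512 (Ok.split 3 394752 cb431 (Ok.split 1 777728 (Ok.split 5 524288 (Ok.split 5 262144 cb432 (Ok.split 0 128 (Ok.split 1 771840 cb433 cb434) cb435)) (Ok.split 5 786432 cb436 cb437)) (Ok.split 5 524288 (Ok.split 5 262144 cb438 (Ok.split 0 128 (Ok.split 1 783616 (Ok.split 5 393216 cb439 cb440) (Ok.split 6 323584 cb441 cb442)) cb443)) (Ok.split 5 786432 cb444 cb445)))) cb446) cb447) cb448) (Ok.split 6 409600 (Ok.split 6 352256 (Ok.split 0 512 (Ok.split 1 801280 (Ok.split 3 400640 cb449 (Ok.split 5 524288 (Ok.split 5 262144 cb450 (Ok.split 0 128 (Ok.split 6 323584 cb451 (Ok.split 6 337920 (Ok.split 1 795392 cb452 cb453) cb454)) cb455)) cb456)) (Ok.split 3 406528 cb457 (Ok.split 0 128 (Ok.split 5 524288 (Ok.split 5 262144 cb458 (Ok.split 6 323584 cb459 cb460)) cb461) cb462))) cb463) cb464) cb465)) cb466) (Ok.split 0 2048 (Ok.split 1 836608 (Ok.split 6 409600 (Ok.split 0 512 (Ok.split 6 352256 (Ok.split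 1 824832 (Ok.split 3 412416 cb467 (Ok.split 0 128 (Ok.split 6 323584 cb468 (Ok.split 5 524288 cb469 cb470)) cb471)) cb472) cb473) cb474) cb475) cb476) cb477)) cb478)) cb479) cb480) (Ok.split 0 131072 (Ok.split 0 32768 (Ok.split 1 954368 cb481 cb482) cb483) cb484)) cb485))

theorem ok_d : Ok 2 (root al 0 (1 / 2)) :=
  (Ok.split 1 524288 (Ok.split 0 147456 (Ok.split 1 262144 (Ok.split 0 32768 (Ok.split 1 131072 cd1 (Ok.split 1 196608 cd2 cd3)) (Ok.split 1 147456 cd4 (Ok.split 0 90112 cd5 (Ok.split 1 204800 (Ok.split 1 176128 cd6 cd7) cd8)))) (Ok.split 0 32768 (Ok.split 1 471858 (Ok.split 1 367001 (Ok.split 0 8192 (Ok.split 1 314573 cd9 cd10) cd11) (Ok.split 0 8192 (Ok.split 1 419430 cd12 cd13) cd14)) cd15) cd16)) cd17) (Ok.split 0 147456 (Ok.split 1 786432 cd18 cd19) cd20))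

end Crest.Agent.R214
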